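import Vale.Agent.P181.DG.Defs
import Vale.Agent.P181.SZC1.Flow

set_option autoImplicit false

/-!
# P181, DG, task D7 (helper317): the flow `FlowT`
-/

namespace Vale.Agent.P181.DG7

open Vale.Agent.P181.DG
open Vale.Agent.P181.SZC1 (double_count card_values blk blk_ge blk_lt blk_disj card_blk lets
  mem_lets sum_lets card_lets nodup_lets card_not_mem)

theorem mem_KT {w S : ℕ} (hS : 1 ≤ S) {k : Multiset ℕ} :
    k ∈ KT w S ↔ k.sum ≤ w ∧ ∀ x ∈ k, S ≤ x := by
  unfold KT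
  simp only [Finset.mem_biUnion, Finset.mem_range, Finset.mem_filter, Finset.mem_image,
    Finset.mem_univ, true_and]
  constructor
  · rintro ⟨u, hu, ⟨p, rfl⟩, h⟩
    exact ⟨by rw [p.parts_sum]; omega, h⟩
  · rintro ⟨h1, h2⟩
    exact ⟨k.sum, by omega, ⟨⟨k, fun {x} hx => by have := h2 x hx; omega, rfl⟩, rfl⟩, h2⟩

/-- the choices -/
noncomputable def ch (n S s : ℕ) (k r : Multiset ℕ) (v : ℕ) : Finset (Σ _ : Fin n → ℕ, ℕ) :=
  open scoped Classical in
  (Fintype.piFinset fun q : Fin n => (blk S s (q + 1)).filter (· ∉ k)).sigma fun f =>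
    (blk S s 0).filter fun u => u ∉ k ∧ v - (u + ∑ q, f q) ∉ r

theorem mem_ch {n S s v : ℕ} {k r : Multiset ℕ} {c : Σ _ : Fin n → ℕ, ℕ} :
    c ∈ ch n S s k r v ↔ (∀ q : Fin n, c.1 q ∈ blk S s (q + 1) ∧ c.1 q ∉ k) ∧ c.2 ∈ blk S s 0 ∧
      c.2 ∉ k ∧ v - (c.2 + ∑ q, c.1 q) ∉ r := by
  classical
  unfold ch
  simp only [Finset.mem_sigma, Fintype.mem_piFinset, Finset.mem_filter]

/-- lower bound for the number of choices -/
theorem card_ch {n S s P v : ℕ} {k r : Multiset ℕ}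
    (hP : (k.toFinset.filter (S ≤ ·)).card ≤ P) (hr : ∀ x ∈ r, x ∈ k) (hs : s * (n + 1) ≤ S)
    (hv : 2 * (n + 1) * S + S ≤ v) :
    (s - 2 * P) ^ (n + 1) ≤ (ch n S s k r v).card := by
  classical
  unfold ch
  rw [Finset.card_sigma]
  have hsum : ∀ f ∈ Fintype.piFinset fun q : Fin n => (blk S s (q + 1)).filter (· ∉ k),
      ∑ q, f q ≤ n * (2 * S) := by
    intro f hf
    rw [Fintype.mem_piFinset] at hf
    calc ∑ q, f q ≤ ∑ _q : Fin n, 2 * S := by
          refine Finset.sum_le_sum fun q _ => ?_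
          have h1 := (Finset.mem_filter.1 (hf q)).1
          exact (blk_lt (K := n + 1) h1 (by omega) hs).le
      _ = n * (2 * S) := by simp
  have hone : ∀ f ∈ Fintype.piFinset fun q : Fin n => (blk S s (q + 1)).filter (· ∉ k),
      s - 2 * P ≤ ((blk S s 0).filter fun u => u ∉ k ∧ v - (u + ∑ q, f q) ∉ r).card := by
    intro f hf
    have hSig := hsum f hf
    have h1 : s - P ≤ ((blk S s 0).filter (· ∉ k)).card := card_not_mem hP
    have h2 : (((blk S s 0).filter (· ∉ k)).filter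
        fun u => v - (u + ∑ q, f q) ∈ r).card ≤ P := by
      refine (Finset.card_le_card_of_injOn (fun u => v - (u + ∑ q, f q)) ?_ ?_).trans hP
      · intro u hu
        simp only [Finset.coe_filter, Set.mem_ofPred_eq, Finset.mem_filter] at hu
        simp only [Finset.coe_filter, Set.mem_ofPred_eq, Multiset.mem_toFinset]
        refine ⟨hr _ hu.2, ?_⟩
        have h3 := blk_lt (K := n + 1) hu.1.1 (by omega) hs
        have h4 : 2 * (n + 1) * S = n * (2 * S) + 2 * S := by ring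
        have h5 : 0 ≤ n * (2 * S) := Nat.zero_le _
        omega
      · intro u hu u' hu' huu
        simp only [Finset.coe_filter, Set.mem_ofPred_eq, Finset.mem_filter] at hu hu'
        have h3 := blk_lt (K := n + 1) hu.1.1 (by omega) hs
        have h3' := blk_lt (K := n + 1) hu'.1.1 (by omega) hs
        have h4 : 2 * (n + 1) * S = n * (2 * S) + 2 * S := by ring
        have h5 : 0 ≤ n * (2 * S) := Nat.zero_le _
        simp only at huu
        omega
    have h3 := Finset.card_filter_add_card_filter_not (s := (blk S s 0).filter (· ∉ k))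
      (fun u => v - (u + ∑ q, f q) ∈ r)
    have h4 : (((blk S s 0).filter (· ∉ k)).filter
        fun u => ¬ v - (u + ∑ q, f q) ∈ r) =
        (blk S s 0).filter fun u => u ∉ k ∧ v - (u + ∑ q, f q) ∉ r := by
      rw [Finset.filter_filter]
    rw [h4] at h3
    omega
  calc (s - 2 * P) ^ (n + 1) = (s - 2 * P) ^ n * (s - 2 * P) := pow_succ _ _
    _ ≤ (Fintype.piFinset fun q : Fin n => (blk S s (q + 1)).filter (· ∉ k)).card * (s - 2 * P) := by
        refine Nat.mul_le_mul_right _ ?_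
        rw [Fintype.card_piFinset]
        calc (s - 2 * P) ^ n = ∏ _q : Fin n, (s - 2 * P) := by simp
          _ ≤ ∏ q : Fin n, ((blk S s (q + 1)).filter (· ∉ k)).card := by
              refine Finset.prod_le_prod' fun q _ => ?_
              have := card_not_mem (S := S) (s := s) (q := q + 1) hP
              omega
    _ = ∑ _f ∈ Fintype.piFinset fun q : Fin n => (blk S s (q + 1)).filter (· ∉ k),
          (s - 2 * P) := by rw [Finset.sum_const, smul_eq_mul]
    _ ≤ _ := Finset.sum_le_sum hone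

theorem sum_ch {n S s v : ℕ} {k r : Multiset ℕ} {c : Σ _ : Fin n → ℕ, ℕ}
    (hsS : s * (n + 1) ≤ S) (hc : c ∈ ch n S s k r v) :
    c.2 + ∑ q, c.1 q ≤ 2 * (n + 1) * S := by
  rw [mem_ch] at hc
  have h1 := blk_lt (K := n + 1) hc.2.1 (by omega) hsS
  have h2 : ∑ q, c.1 q ≤ n * (2 * S) := by
    calc ∑ q, c.1 q ≤ ∑ _q : Fin n, 2 * S := by
          refine Finset.sum_le_sum fun q _ => ?_
          exact (blk_lt (K := n + 1) (hc.1 q).1 (by omega) hsS).le
      _ = n * (2 * S) := by simp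
  have h3 : 2 * (n + 1) * S = 2 * S + n * (2 * S) := by ring
  omega

theorem lets_ch {n S s v : ℕ} {k r : Multiset ℕ} {c : Σ _ : Fin n → ℕ, ℕ}
    (hsS : s * (n + 1) ≤ S) (hc : c ∈ ch n S s k r v) {u : ℕ} (hu : u ∈ lets c.1 c.2) :
    S ≤ u ∧ u < 2 * S ∧ u ∉ k := by
  rw [mem_ch] at hc
  rcases mem_lets.1 hu with rfl | ⟨q, rfl⟩
  · exact ⟨blk_ge hc.2.1, blk_lt (K := n + 1) hc.2.1 (by omega) hsS, hc.2.2.1⟩
  · exact ⟨blk_ge (hc.1 q).1, blk_lt (K := n + 1) (hc.1 q).1 (by omega) hsS, (hc.1 q).2⟩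

/-- the number of units -/
def dd (a K c t : ℕ) : ℕ := if a < c + t + K then 0 else max 2 (a + 1 - c - K - t)

theorem dd_facts {a K c t J x : ℕ} (hK : 1 ≤ K) (hc : 1 ≤ c) (hJ : J ≤ c + t)
    (ht : t ≤ a) (hJa : J + 1 ≤ a) (hx : a < x) :
    J ≤ x - dd a K c t ∧ dd a K c t ≤ x ∧ t + dd a K c t ≤ a ∧ a < c + K + (t + dd a K c t) ∧
      (dd a K c t = 0 ∨ 2 ≤ dd a K c t ∧ t ≤ x - dd a K c t) := by
  unfold dd
  split_ifs with h
  · omega
  · rcases le_total 2 (a + 1 - c - K - t) with h2 | h2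
    · rw [max_eq_right h2]
      omega
    · rw [max_eq_left h2]
      omega

/-- the target of a choice -/
noncomputable def tgt {n : ℕ} (y D : Multiset ℕ × ℕ → ℕ) (p : Multiset ℕ × ℕ)
    (c : Σ _ : Fin n → ℕ, ℕ) : Multiset ℕ × ℕ :=
  ((y p - D p - (c.2 + ∑ q, c.1 q)) ::ₘ (lets c.1 c.2 + p.1.erase (y p)), p.2 + D p)

open scoped Classical in
/-- the fibres -/
theorem fibre_le {Bad : Finset (Multiset ℕ × ℕ)} {n S s P a : ℕ} {y D : Multiset ℕ × ℕ → ℕ}
    (hsS : s * (n + 1) ≤ S)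
    (hy : ∀ p ∈ Bad, y p ∈ p.1 ∧ D p ≤ y p ∧ 2 * (n + 1) * S + S ≤ y p - D p ∧ D p < a + 2)
    (p' : Multiset ℕ × ℕ) (hP : (p'.1.toFinset.filter (S ≤ ·)).card ≤ P) :
    ((Bad.sigma fun p => ch n S s p.1 (p.1.erase (y p)) (y p - D p)).filter
      fun p => tgt y D p.1 p.2 = p').card ≤ P ^ (n + 1) * (P * (a + 2)) := by
  have hc1 : ∀ q, ((blk S s q).filter (· ∈ p'.1)).card ≤ P := by
    intro q
    refine (Finset.card_le_card ?_).trans hP
    intro u hu
    rw [Finset.mem_filter] at hu ⊢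
    exact ⟨Multiset.mem_toFinset.2 hu.2, blk_ge hu.1⟩
  have hU : (((Fintype.piFinset fun q : Fin n => (blk S s (q + 1)).filter (· ∈ p'.1)).sigma
      fun _ => (blk S s 0).filter (· ∈ p'.1)) ×ˢ
        ((p'.1.toFinset.filter (S ≤ ·)) ×ˢ Finset.range (a + 2))).card ≤
      P ^ (n + 1) * (P * (a + 2)) := by
    rw [Finset.card_product, Finset.card_sigma, Finset.sum_const, smul_eq_mul,
      Finset.card_product, Finset.card_range]
    refine Nat.mul_le_mul ?_ (Nat.mul_le_mul_right _ hP)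
    rw [pow_succ]
    refine Nat.mul_le_mul ?_ (hc1 0)
    rw [Fintype.card_piFinset]
    calc ∏ q : Fin n, ((blk S s (q + 1)).filter (· ∈ p'.1)).card ≤ ∏ _q : Fin n, P :=
          Finset.prod_le_prod' fun q _ => hc1 _
      _ = P ^ n := by simp
  refine (Finset.card_le_card_of_injOn
    (fun p => (p.2, (y p.1 - D p.1 - (p.2.2 + ∑ q, p.2.1 q), D p.1))) ?_ ?_).trans hU
  · intro p hp
    rw [Finset.mem_coe, Finset.mem_filter, Finset.mem_sigma] at hp
    obtain ⟨⟨hp1, hp2⟩, hp3⟩ := hp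
    have hcs := sum_ch hsS hp2
    have hyY := hy _ hp1
    rw [mem_ch] at hp2
    have h31 : (tgt y D p.1 p.2).1 = p'.1 := by rw [hp3]
    have hin : ∀ v ∈ lets p.2.1 p.2.2, v ∈ p'.1 := by
      intro v hv
      rw [← h31]
      exact Multiset.mem_cons_of_mem (Multiset.mem_add.2 (Or.inl hv))
    rw [Finset.mem_coe, Finset.mem_product, Finset.mem_sigma, Fintype.mem_piFinset,
      Finset.mem_product]
    refine ⟨⟨fun q => ?_, ?_⟩, ?_, ?_⟩
    · rw [Finset.mem_filter]
      exact ⟨(hp2.1 q).1, hin _ (mem_lets.2 (Or.inr ⟨q, rfl⟩))⟩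
    · rw [Finset.mem_filter]
      exact ⟨hp2.2.1, hin _ (mem_lets.2 (Or.inl rfl))⟩
    · rw [Finset.mem_filter, Multiset.mem_toFinset]
      refine ⟨?_, ?_⟩
      · rw [← h31]
        exact Multiset.mem_cons_self _ _
      · show S ≤ y p.1 - D p.1 - (p.2.2 + ∑ q, p.2.1 q)
        omega
    · rw [Finset.mem_range]
      exact hyY.2.2.2
  · intro p hp p' hp' hpp
    rw [Finset.mem_coe, Finset.mem_filter, Finset.mem_sigma] at hp hp'
    obtain ⟨⟨hp1, hp2⟩, hp3⟩ := hp
    obtain ⟨⟨hp1', hp2'⟩, hp3'⟩ := hp'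
    have hcs := sum_ch hsS hp2
    have hcs' := sum_ch hsS hp2'
    have hyY := hy _ hp1
    have hyY' := hy _ hp1'
    obtain ⟨⟨k, t⟩, c⟩ := p
    obtain ⟨⟨k₂, t₂⟩, c₂⟩ := p'
    simp only [Prod.mk.injEq] at hpp
    obtain ⟨rfl, hpp, hDD⟩ := hpp
    simp only at hp1 hp1' hp2 hp2' hp3 hp3' hcs hcs' hyY hyY'
    have hyy : y (k, t) = y (k₂, t₂) := by omega
    have h2 := hp3.trans hp3'.symm
    unfold tgt at h2
    simp only [Prod.mk.injEq] at h2
    obtain ⟨h2, h4⟩ := h2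
    have h1 : k.erase (y (k, t)) = k₂.erase (y (k₂, t₂)) := by
      rw [hpp] at h2
      exact add_left_cancel ((Multiset.cons_inj_right _).1 h2)
    have h3 : k = k₂ := by
      rw [← Multiset.cons_erase hyY.1, ← Multiset.cons_erase hyY'.1, h1, hyy]
    have h5 : t = t₂ := by omega
    subst h3
    subst h5
    rfl

/-- **D7**. -/
theorem flowT : FlowT := by
  classical
  intro g a J S K X w hg hK hS hX hw hwX hJ hJa
  obtain ⟨n, rfl⟩ : ∃ n, K = n + 1 := ⟨K - 1, by omega⟩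
  obtain ⟨s, hs⟩ : ∃ s, s = S / (n + 1) := ⟨_, rfl⟩
  obtain ⟨P, hP⟩ : ∃ P, P = w / S := ⟨_, rfl⟩
  have hsS : s * (n + 1) ≤ S := by rw [hs]; exact Nat.div_mul_le_self _ _
  have hPS : P * S ≤ w := by rw [hP]; exact Nat.div_mul_le_self _ _
  have hPw : P ≤ w := by rw [hP]; exact Nat.div_le_self _ _
  obtain ⟨V, hV⟩ : ∃ V, V = KT w S ×ˢ Finset.range (a + 2) := ⟨_, rfl⟩
  obtain ⟨Bad, hBad⟩ : ∃ Bad, Bad = V.filter (BadT a J) := ⟨_, rfl⟩
  obtain ⟨G, hG⟩ : ∃ G, G = V.filter (GoodT a) := ⟨_, rfl⟩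
  obtain ⟨T, hT⟩ : ∃ T, T = Bad ∪ G := ⟨_, rfl⟩
  rw [← hV, ← hBad, ← hG]
  have hdis : Disjoint Bad G := by
    rw [Finset.disjoint_left]
    intro p hp hp'
    rw [hBad, Finset.mem_filter] at hp
    rw [hG, Finset.mem_filter] at hp'
    obtain ⟨x, hx, hxa⟩ := hp.2.1
    have := hp'.2.1 x hx
    omega
  have hsumT : ∑ p ∈ T, g p.1 p.2 = ∑ p ∈ Bad, g p.1 p.2 + ∑ p ∈ G, g p.1 p.2 := by
    rw [hT, Finset.sum_union hdis]
  have hmV : ∀ p : Multiset ℕ × ℕ, p ∈ V ↔ (p.1.sum ≤ w ∧ ∀ x ∈ p.1, S ≤ x) ∧ p.2 < a + 2 := by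
    intro p
    rw [hV, Finset.mem_product, mem_KT (by omega), Finset.mem_range]
  have hvals : ∀ p ∈ Bad, (p.1.sum ≤ w ∧ ∀ x ∈ p.1, S ≤ x) ∧ BadT a J p := by
    intro p hp
    rw [hBad, Finset.mem_filter, hmV] at hp
    exact ⟨hp.1.1, hp.2⟩
  -- if there are no bad states
  by_cases hTe : Bad = ∅
  · rw [hTe, Finset.sum_empty]
    omega
  obtain ⟨p₁, hp₁⟩ := Finset.nonempty_iff_ne_empty.2 hTe
  have hSJ : S ≤ J := by
    have : (2 * (n + 1) + 3) * S = S + (2 * (n + 1) + 2) * S := by ring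
    omega
  have hP1 : 1 ≤ P := by
    obtain ⟨x, hx, hxa⟩ := (hvals p₁ hp₁).2.1
    have h1 := Multiset.le_sum_of_mem hx
    have h2 := (hvals p₁ hp₁).1.1
    rw [hP, Nat.le_div_iff_mul_le (by omega)]
    omega
  -- numbers
  have hXP : P * X ^ 2 ≤ S := by
    have h1 : P * X ^ 2 * S ≤ S * S := by
      calc P * X ^ 2 * S = P * S * X ^ 2 := by ring
        _ ≤ w * X ^ 2 := Nat.mul_le_mul_right _ hPS
        _ ≤ S ^ 2 := hw
        _ = S * S := by ring
    exact Nat.le_of_mul_le_mul_right h1 (by omega)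
  have hsP : X * P ≤ s - 2 * P := by
    have h1 : (X + 2) * P ≤ s := by
      rw [hs, Nat.le_div_iff_mul_le (by omega)]
      calc (X + 2) * P * (n + 1) = ((X + 2) * (n + 1)) * P := by ring
        _ ≤ X ^ 2 * P := by
            refine Nat.mul_le_mul_right _ ?_
            nlinarith
        _ = P * X ^ 2 := by ring
        _ ≤ S := hXP
    have h2 : (X + 2) * P = X * P + 2 * P := by ring
    omega
  -- the letter
  have hlet : ∀ p : Multiset ℕ × ℕ, ∃ y : ℕ, p ∈ Bad → y ∈ p.1 ∧ a < y := by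
    intro p
    by_cases hp : p ∈ Bad
    · obtain ⟨y, h1, h2⟩ := (hvals p hp).2.1
      exact ⟨y, fun _ => ⟨h1, h2⟩⟩
    · exact ⟨0, fun h => absurd h hp⟩
  choose y hy using hlet
  obtain ⟨D, hD⟩ : ∃ D : Multiset ℕ × ℕ → ℕ, D = fun p =>
      dd a (n + 1) (Multiset.card p.1) p.2 := ⟨_, rfl⟩
  have hfac : ∀ p ∈ Bad, J ≤ y p - D p ∧ D p ≤ y p ∧ p.2 + D p ≤ a ∧
      a < Multiset.card p.1 + (n + 1) + (p.2 + D p) ∧
      (D p = 0 ∨ 2 ≤ D p ∧ p.2 ≤ y p - D p) := by
    intro p hp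
    obtain ⟨h1, h2, h3, h4⟩ := (hvals p hp).2
    rw [hD]
    refine dd_facts (by omega) ?_ h2 h4 hJa (hy p hp).2
    exact Multiset.card_pos_iff_exists_mem.2 ⟨_, (hy p hp).1⟩
  have hJS : 2 * (n + 1) * S + 3 * S ≤ J := by
    have : (2 * (n + 1) + 3) * S = 2 * (n + 1) * S + 3 * S := by ring
    omega
  have hcard : ∀ k : Multiset ℕ, k.sum ≤ w → (k.toFinset.filter (S ≤ ·)).card ≤ P := by
    intro k hk
    rw [hP, Nat.le_div_iff_mul_le (by omega)]
    exact (card_values k S).trans hk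
  have main : (X * P) ^ (n + 1) * ∑ p ∈ Bad, g p.1 p.2 ≤
      (P ^ (n + 1) * (P * (a + 2))) * ∑ p ∈ T, g p.1 p.2 := by
    refine double_count Bad T (fun p => ch n S s p.1 (p.1.erase (y p)) (y p - D p))
      (fun p c => tgt y D p c) (fun p => g p.1 p.2) _ _ ?_ ?_ ?_ ?_
    · intro p hp
      refine (Nat.pow_le_pow_left hsP _).trans
        (card_ch (hcard _ (hvals p hp).1.1) (fun x hx => Multiset.mem_of_mem_erase hx) hsS ?_)
      have h1 := (hfac p hp).1
      omega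
    · intro p hp c hc
      obtain ⟨hf1, hf2, hf3, hf4, -⟩ := hfac p hp
      obtain ⟨⟨hv1, hv2⟩, hv3, hv4, hv5, hv6⟩ := hvals p hp
      have hcs := sum_ch hsS hc
      have hyk := (hy p hp).1
      obtain ⟨r, hr⟩ := Multiset.exists_cons_of_mem hyk
      have her : p.1.erase (y p) = r := by
        conv_lhs => rw [hr]
        rw [Multiset.erase_cons_head]
      have hsum : (tgt y D p c).1.sum ≤ w := by
        have h1 : p.1.sum = y p + r.sum := by rw [hr, Multiset.sum_cons]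
        unfold tgt
        simp only [Multiset.sum_cons, Multiset.sum_add, sum_lets, her]
        omega
      have hcd : Multiset.card (tgt y D p c).1 = Multiset.card p.1 + (n + 1) := by
        have h1 : Multiset.card p.1 = Multiset.card r + 1 := by rw [hr, Multiset.card_cons]
        unfold tgt
        simp only [Multiset.card_cons, Multiset.card_add, card_lets, her]
        omega
      have hge : ∀ x ∈ (tgt y D p c).1, S ≤ x := by
        intro x hx
        unfold tgt at hx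
        simp only [Multiset.mem_cons, Multiset.mem_add] at hx
        rcases hx with rfl | hx | hx
        · omega
        · exact (lets_ch hsS hc hx).1
        · exact hv2 x (Multiset.mem_of_mem_erase hx)
      have h2 : (tgt y D p c).2 = p.2 + D p := rfl
      have hmem : tgt y D p c ∈ V := (hmV _).2 ⟨⟨hsum, hge⟩, by omega⟩
      rw [hT, Finset.mem_union]
      by_cases hall : ∀ x ∈ (tgt y D p c).1, x ≤ a
      · right
        rw [hG, Finset.mem_filter]
        exact ⟨hmem, hall, by omega, by omega⟩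
      · left
        push Not at hall
        rw [hBad, Finset.mem_filter]
        exact ⟨hmem, hall, by omega, by omega, by omega⟩
    · intro p hp c hc
      obtain ⟨hf1, hf2, hf3, hf4, hf5⟩ := hfac p hp
      obtain ⟨⟨hv1, hv2⟩, hv3, hv4, hv5, hv6⟩ := hvals p hp
      have hcs := sum_ch hsS hc
      have hyk := (hy p hp).1
      have hlc := fun u (hu : u ∈ lets c.1 c.2) => lets_ch hsS hc hu
      rw [mem_ch] at hc
      obtain ⟨hc1, hc2, hc3, hc4⟩ := hc
      have hnd := nodup_lets (fun q => (hc1 q).1) hc2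
      have hpos : 0 < c.2 + ∑ q, c.1 q := by
        have := blk_ge hc2
        omega
      have h1 := hg (p.1.erase (y p)) ((y p - D p - (c.2 + ∑ q, c.1 q)) ::ₘ lets c.1 c.2)
        (y p) (D p) p.2 hv5 (by omega) ?_ ?_ ?_ ?_
      · rw [Multiset.cons_erase hyk, Multiset.cons_add] at h1
        exact h1
      · rw [Multiset.nodup_cons]
        refine ⟨fun h => ?_, hnd⟩
        have := (hlc _ h).2.1
        omega
      · intro u hu
        rw [Multiset.mem_cons] at hu
        rcases hu with rfl | hu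
        · exact ⟨by omega, hc4, by omega⟩
        · have h2 := hlc u hu
          exact ⟨h2.1, fun h => h2.2.2 (Multiset.mem_of_mem_erase h), by omega⟩
      · rw [Multiset.sum_cons, sum_lets]
        omega
      · rcases hf5 with h | ⟨h, h'⟩
        · exact Or.inl h
        · refine Or.inr ⟨h, ?_⟩
          rw [Multiset.sum_cons, sum_lets]
          omega
    · intro p' hp'
      have hp's : p'.1.sum ≤ w := by
        rw [hT, Finset.mem_union, hBad, hG, Finset.mem_filter, Finset.mem_filter] at hp'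
        rcases hp' with h | h
        · exact ((hmV _).1 h.1).1.1
        · exact ((hmV _).1 h.1).1.1
      refine fibre_le hsS (fun p hp => ?_) p' (hcard _ hp's)
      have h1 := hfac p hp
      refine ⟨(hy p hp).1, h1.2.1, ?_, ?_⟩
      · omega
      · omega
  -- conclusion
  have hPpos : 0 < P ^ (n + 1) * (P * (a + 2)) :=
    Nat.mul_pos (Nat.pow_pos hP1) (Nat.mul_pos hP1 (by omega))
  have h4 : 4 * (P ^ (n + 1) * (P * (a + 2))) ≤ (X * P) ^ (n + 1) := by
    rw [mul_pow]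
    calc 4 * (P ^ (n + 1) * (P * (a + 2))) = (4 * (P * (a + 2))) * P ^ (n + 1) := by ring
      _ ≤ (4 * ((w + 1) * (a + 2))) * P ^ (n + 1) := by
          refine Nat.mul_le_mul_right _ (Nat.mul_le_mul_left _ (Nat.mul_le_mul_right _ ?_))
          omega
      _ ≤ X ^ (n + 1) * P ^ (n + 1) := Nat.mul_le_mul_right _ hwX
  have h5 : 4 * ∑ p ∈ Bad, g p.1 p.2 ≤ ∑ p ∈ T, g p.1 p.2 := by
    have h6 : (P ^ (n + 1) * (P * (a + 2))) * (4 * ∑ p ∈ Bad, g p.1 p.2) ≤
        (P ^ (n + 1) * (P * (a + 2))) * ∑ p ∈ T, g p.1 p.2 := by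
      calc (P ^ (n + 1) * (P * (a + 2))) * (4 * ∑ p ∈ Bad, g p.1 p.2)
          = (4 * (P ^ (n + 1) * (P * (a + 2)))) * ∑ p ∈ Bad, g p.1 p.2 := by ring
        _ ≤ (X * P) ^ (n + 1) * ∑ p ∈ Bad, g p.1 p.2 := Nat.mul_le_mul_right _ h4
        _ ≤ _ := main
    exact Nat.le_of_mul_le_mul_left h6 hPpos
  omega

end Vale.Agent.P181.DG7
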